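import Vale.Agent.P352G75.Defs
import Vale.Agent.P352NA.DEN
import Vale.Agent.P352X.EG.SG

/-!
# P352G62, row DENS of the graded net-only route
-/

set_option linter.all false

open Filter Topology
open scoped ComplexConjugate

namespace Vale.Agent.P352X.EG.NG

open Vale.Agent.P352 Vale.Agent.P352.GF Vale.Agent.P352.BW Vale.Agent.P352.H246
open Vale.Agent.P352.H496 Vale.Agent.P352.H755 Vale.Agent.P352.H15
open Vale.Agent.P352.SubConf (IsAdj)
open Vale.Agent.P352X.EB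
open Vale.Agent.P352X.EB.NA (al_cpt ex_cpt)
open UniformSpace (Completion)

noncomputable section

variable {D : Type*} [NormedAddCommGroup D] [InnerProductSpace ℂ D] {c : Cg D} {O O' : Set V}
  {X Y Z : Completion D →L[ℂ] Completion D}

namespace Den

theorem gg (X : Completion D →L[ℂ] Completion D) : c.Γ * (c.Γ * X) = X := by
  rw [← mul_assoc, SGx.g2, one_mul]

theorem sm (z : ℂ) (h : X ∈ c.N O) : z • X ∈ c.N O := (c.N O).toStarSubalgebra.smul_mem h z

theorem mm (h : X ∈ c.N O) (e : Y = X) : Y ∈ c.N O := e ▸ h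

theorem nt_iff : Z ∈ Nt c O ↔ Z + c.Γ * Z * c.Γ ∈ c.N O ∧ (Z - c.Γ * Z * c.Γ) * c.Γ ∈ c.N O := by
  constructor
  · intro h
    have a := add_mem h (c.hN.gam O _ h)
    have b := sub_mem h (c.hN.gam O _ h)
    refine ⟨mm (a) ?_, mm (b) ?_⟩ <;>
    · simp only [tw, mul_add, add_mul, mul_sub, sub_mul, smul_mul_assoc, mul_smul_comm, mul_assoc,
        gg, SGx.g2, mul_one]
      module
  · rintro ⟨a, b⟩
    refine add_mem (sm _ a) ?_
    rw [smul_mul_assoc]
    exact sm _ b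

theorem nt_mono (e : O ⊆ O') (h : Z ∈ Nt c O) : Z ∈ Nt c O' := c.N_mono e _ h

theorem nt_ev (h : X ∈ c.N O) : X + c.Γ * X * c.Γ ∈ Nt c O := by
  have a := add_mem h (c.hN.gam O _ h)
  refine nt_iff.2 ⟨mm (add_mem a a) ?_, mm (zero_mem _) ?_⟩ <;>
  · simp only [mul_add, add_mul, mul_sub, sub_mul, mul_assoc, gg, SGx.g2, mul_one]
    abel

theorem nt_od (h : X ∈ c.N O) : (X - c.Γ * X * c.Γ) * c.Γ ∈ Nt c O := by
  have a := sub_mem h (c.hN.gam O _ h)
  refine nt_iff.2 ⟨mm (zero_mem _) ?_, mm (add_mem a a) ?_⟩ <;>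
  · simp only [mul_add, add_mul, mul_sub, sub_mul, mul_assoc, gg, SGx.g2, mul_one]
    abel

theorem nt_one : 1 ∈ Nt c O := by
  refine nt_iff.2 ⟨?_, ?_⟩ <;> simp only [mul_one, SGx.g2, sub_self, zero_mul]
  exacts [add_mem (one_mem _) (one_mem _), zero_mem _]

theorem nt_add (h : X ∈ Nt c O) (h' : Y ∈ Nt c O) : X + Y ∈ Nt c O := by
  obtain ⟨a, b⟩ := nt_iff.1 h
  obtain ⟨a', b'⟩ := nt_iff.1 h'
  refine nt_iff.2 ⟨mm (add_mem a a') ?_, mm (add_mem b b') ?_⟩ <;>
  · simp only [mul_add, add_mul, mul_sub, sub_mul]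
    abel

theorem nt_smul (z : ℂ) (h : X ∈ Nt c O) : z • X ∈ Nt c O := by
  obtain ⟨a, b⟩ := nt_iff.1 h
  refine nt_iff.2 ⟨mm (sm z a) ?_, mm (sm z b) ?_⟩ <;>
  simp only [smul_add, smul_sub, sub_mul, smul_mul_assoc, mul_smul_comm]

theorem nt_gam (h : X ∈ Nt c O) : c.Γ * X * c.Γ ∈ Nt c O := by
  obtain ⟨a, b⟩ := nt_iff.1 h
  refine nt_iff.2 ⟨mm (a) ?_, mm (neg_mem b) ?_⟩ <;>
  · simp only [mul_add, add_mul, mul_sub, sub_mul, mul_assoc, gg, SGx.g2, mul_one]
    abel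

theorem nt_mul (h : X ∈ Nt c O) (h' : Y ∈ Nt c O) : X * Y ∈ Nt c O := by
  obtain ⟨a, b⟩ := nt_iff.1 h
  obtain ⟨a', b'⟩ := nt_iff.1 h'
  refine nt_iff.2 ⟨mm (sm 2⁻¹ (sub_mem (mul_mem a a') (mul_mem b b'))) ?_,
    mm (sm 2⁻¹ (add_mem (mul_mem a b') (mul_mem b a'))) ?_⟩ <;>
  · simp only [mul_add, add_mul, mul_sub, sub_mul, mul_assoc, gg, SGx.g2, mul_one]
    module

theorem nt_star (h : X ∈ Nt c O) : star X ∈ Nt c O := by
  obtain ⟨a, b⟩ := nt_iff.1 h
  refine nt_iff.2 ⟨mm (star_mem a) ?_, mm (neg_mem (star_mem b)) ?_⟩ <;>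
  · simp only [star_add, star_sub, star_mul, SGx.gs, mul_add, add_mul, mul_sub, sub_mul, mul_assoc,
      gg, SGx.g2, mul_one]
    try abel

theorem nt_vac (h : X ∈ c.N O) : ∃ Z ∈ Nt c O, Z c.Om = X c.Om :=
  ⟨_, nt_smul (1 / 2) (nt_add (nt_ev h) (nt_od h)), SGx.tw X⟩

/-- operators of definite parity that commute with the twisted algebra -/
theorem com {e : Bool} {y : Completion D →L[ℂ] Completion D} (p : c.Γ * y = sg e • (y * c.Γ))
    (h : ∀ Y ∈ Nt c O, Y * y = y * Y) : y * c.gp e ∈ (c.N O).commutant := by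
  refine VonNeumannAlgebra.mem_commutant_iff.2 fun Y hY => ?_
  have a := h _ (nt_ev hY)
  have b := h _ (nt_od hY)
  have p' : ∀ X, c.Γ * (y * X) = sg e • (y * (c.Γ * X)) := fun X => by
    rw [← mul_assoc, p, smul_mul_assoc, mul_assoc]
  have b' := congrArg (· * c.Γ) b
  have a' := congrArg (· * c.Γ) a
  cases e <;> simp only [Cg.gp, sg, cond_true, cond_false, mul_add, add_mul, mul_sub, sub_mul, mul_assoc,
      gg, SGx.g2, mul_one, p, p', one_smul, mul_smul_comm, smul_mul_assoc, smul_smul] at a b a' b' ⊢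
  · linear_combination (norm := module) (2⁻¹ : ℂ) • a + (2⁻¹ : ℂ) • b'
  · linear_combination (norm := module) (2⁻¹ : ℂ) • a' - (2⁻¹ : ℂ) • b

end Den

open Den

variable [Nd c] [NI c]

theorem dens_row (t : E0 c) : DENS c := by
  intro ξ η ζ h Z hZ
  let 𝒜 : Set (Completion D →L[ℂ] Completion D) := {Y | ∃ C, IsCompact C ∧ C ⊆ W1 ∧ Y ∈ Nt c C}
  have sub : ∀ Y ∈ 𝒜, Y ∈ (M0 c).commutant := fun Y ⟨C, _, a, b⟩ =>
    (NI.dual Y).2 (nt_mono a b)
  have hs : ∀ Y ∈ 𝒜, star Y ∈ 𝒜 := fun Y ⟨C, a, b, d⟩ => ⟨C, a, b, nt_star d⟩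
  have hd : Dense {z | ∃ Y ∈ 𝒜, Y c.Om = z} := by
    obtain ⟨C, c1, c2, c3⟩ := ex_cpt
    refine (SGx.rs (c := c) isOpen_interior c3).mono ?_
    rintro z ⟨X, hX, e⟩
    obtain ⟨Y, hY, e'⟩ := nt_vac (c.N_mono interior_subset _ hX)
    exact ⟨Y, ⟨C, c1, c2, hY⟩, e'.trans e⟩
  have one : ∀ (e : Bool) y, c.Γ * y = sg e • (y * c.Γ) → (∀ Y ∈ 𝒜, Y * y = y * Y) →
      y * Z = Z * y := fun e x px hx => by
    have px' : c.Γ * star x = sg e • (star x * c.Γ) := by
      have := congrArg star px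
      rw [star_mul, star_smul, star_mul, SGx.gs] at this
      rw [this, smul_smul]
      cases e <;> simp [sg]
    have pv : ∀ y, c.Γ * y = sg e • (y * c.Γ) → c.Γ (y c.Om) = sg e • y c.Om := fun y hy => by
      have := DFunLike.congr_fun hy c.Om
      simpa only [ContinuousLinearMap.mul_apply, ContinuousLinearMap.smul_apply, SGx.gv] using this
    have p : Pr (M0 c) c.Om (x c.Om) (star x c.Om) :=
      NI.core e _ _ (pv x px) (pv _ px') fun X X' hX => by
        obtain ⟨C, c1, c2, c3⟩ := al_cpt hX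
        have := (t.sg.affa _ _ _ c3).2 _ (com px fun Y hY => hx Y ⟨C, c1, c2, hY⟩) c.Q.vac c.Q.vac
        have q := pv _ px'
        cases e
        · simp only [Cg.gp, cond_false, mul_one] at this
          rw [star_inner, sg, cond_false, one_mul]
          exact this
        · simp only [Cg.gp, cond_true, ContinuousLinearMap.mul_apply] at this
          rw [show c.Γ (c.Q.vac : D) = c.Om from SGx.gv c] at this
          refine this.trans ?_
          rw [show ((c.Q.vac : D) : Completion D) = c.Om from rfl, ← star_inner, ← star_inner,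
            SGx.gs, q, inner_smul_left]
          simp [sg]
    have k : ∀ A ∈ 𝒜, ∀ B ∈ 𝒜, inner ℂ (A c.Om) ((x * Z) (B c.Om)) =
        inner ℂ (A c.Om) ((Z * x) (B c.Om)) := fun A hA B hB => by
      have e := pr_iff.1 p (star A * Z * B) (mul_mem (mul_mem (sub _ (hs A hA)) hZ) (sub B hB))
      have e1 : B (x c.Om) = x (B c.Om) := DFunLike.congr_fun (hx B hB) _
      have e2 : ∀ v, star A (x v) = x (star A v) := DFunLike.congr_fun (hx _ (hs A hA))
      rw [star_inner] at e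
      simp only [ContinuousLinearMap.mul_apply, e1, ← e2, inner_star] at e ⊢
      exact e.symm
    refine DFunLike.coe_injective (Continuous.ext_on hd (x * Z).continuous (Z * x).continuous ?_)
    rintro _ ⟨B, hB, rfl⟩
    exact hd.eq_of_inner_right ℂ (by rintro _ ⟨A, hA, rfl⟩; exact k A hA B hB)
  have := EG.LiftAux.dns2 𝒜 ⟨∅, isCompact_empty, Set.empty_subset _, nt_one⟩
    (fun Y ⟨C, a, b, d⟩ Y' ⟨C', a', b', d'⟩ => ⟨C ∪ C', a.union a', Set.union_subset b b',
      nt_mul (nt_mono Set.subset_union_left d) (nt_mono Set.subset_union_right d')⟩) hs Z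
    (fun x hx => ?_) c.Om ξ ζ η fun Y ⟨C, a, b, d⟩ => by
      rw [← inner_conj_symm, h C a b Y d, inner_conj_symm]
  · rw [← inner_conj_symm, this, inner_conj_symm]
  have hg : ∀ Y ∈ 𝒜, Y * (c.Γ * x * c.Γ) = c.Γ * x * c.Γ * Y := fun Y ⟨C, a, b, d⟩ => by
    have := congrArg (fun w => c.Γ * w * c.Γ) (hx _ ⟨C, a, b, nt_gam d⟩)
    simpa only [mul_assoc, gg, SGx.g2, mul_one] using this
  have a := one false (x + c.Γ * x * c.Γ) (by
    simp only [sg, cond_false, one_smul, mul_add, add_mul, mul_assoc, gg, SGx.g2, mul_one]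
    abel) fun Y hY => by rw [mul_add, add_mul, hx Y hY, hg Y hY]
  have b := one true (x - c.Γ * x * c.Γ) (by
    simp only [sg, cond_true, neg_smul, one_smul, mul_sub, sub_mul, mul_assoc, gg, SGx.g2, mul_one]
    abel) fun Y hY => by rw [mul_sub, sub_mul, hx Y hY, hg Y hY]
  simp only [mul_add, add_mul, mul_sub, sub_mul] at a b
  linear_combination (norm := module) (2⁻¹ : ℂ) • a + (2⁻¹ : ℂ) • b

end

end Vale.Agent.P352X.EG.NG
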